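import Crest.Agent.X212.Rfl19.Geo
import Crest.Agent.X212.Bor5.Th

/-!
# X212 / Rfl19, part Th (helper19): naturality on rod manifolds and the reflection law of a theory

* calculus of `Ag` and `Pb`;
* `nat_rz` : NAT for a diffeomorphism of rod manifolds; `Lb` : a class has given orders; `refl_th` : REFL.
-/

set_option autoImplicit false
set_option linter.unusedSectionVars false

open Set Filter Topology Function
open scoped ContDiff Manifold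
open Crest.Agent.X212.Bor5.T Crest.Agent.X212.Lab56 Crest.Agent.X212.Orx52
open Crest.Agent.X212.Rod53 (E4 Z2 Tb Loc Jv Jr)

noncomputable section

namespace Crest.Agent.X212.Rfl19

section Ag

variable {Y Z Z' : Type} {l : Filter ℝ} {f g h : Y × ℝ → Z}

/-- the two ends of the line -/
def Nd (l : Filter ℝ) : Prop := ∀ δ : ℝ, Tendsto (· + δ) l l

theorem nd_bot : Nd atBot := fun δ => tendsto_atBot_add_const_right _ δ tendsto_id
theorem nd_top : Nd atTop := fun δ => tendsto_atTop_add_const_right _ δ tendsto_id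

theorem ag_of_eq (e : ∀ᶠ t in l, ∀ y, f (y, t) = g (y, t)) : Ag l f g := ⟨0, by simpa using e⟩

theorem ag_refl : Ag l f f := ag_of_eq (.of_forall fun _ _ => rfl)

theorem ag_symm (hl : Nd l) (a : Ag l f g) : Ag l g f :=
  let ⟨δ, e⟩ := a; ⟨-δ, ((hl (-δ)).eventually e).mono fun t k y => by simpa using (k y).symm⟩

theorem ag_trans (hl : Nd l) (a : Ag l f g) (b : Ag l g h) : Ag l f h :=
  let ⟨δ, e⟩ := a
  let ⟨δ', e'⟩ := b
  ⟨δ + δ', (e.and ((hl δ).eventually e')).mono fun t k y => by rw [k.1 y, k.2 y, add_assoc]⟩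

theorem ag_comp (a : Ag l f g) (φ : Z → Z') : Ag l (φ ∘ f) (φ ∘ g) :=
  let ⟨δ, e⟩ := a; ⟨δ, e.mono fun _ k y => congrArg φ (k y)⟩

end Ag

section Pb

variable {E : Type} [NormedAddCommGroup E] [NormedSpace ℝ E] [FiniteDimensional ℝ E]
  {H : Type} [TopologicalSpace H] {I : ModelWithCorners ℝ E H}
  {M : Type} [TopologicalSpace M] [ChartedSpace H M] [IsManifold I ∞ M]
  {E' : Type} [NormedAddCommGroup E'] [NormedSpace ℝ E'] [FiniteDimensional ℝ E']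
  {H' : Type} [TopologicalSpace H'] {I' : ModelWithCorners ℝ E' H'}
  {N : Type} [TopologicalSpace N] [ChartedSpace H' N] [IsManifold I' ∞ N]
  {E'' : Type} [NormedAddCommGroup E''] [NormedSpace ℝ E''] [FiniteDimensional ℝ E'']
  {H'' : Type} [TopologicalSpace H''] {I'' : ModelWithCorners ℝ E'' H''}
  {P : Type} [TopologicalSpace P] [ChartedSpace H'' P] [IsManifold I'' ∞ P]
  {f f' : N → M} {g : P → N} {W W' : Set N} {V : Set P} {d : Cls I (univ : Set M)} {s s' : Cls I' (univ : Set N)}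
  {u : Cls I'' (univ : Set P)}

theorem res_self {O : Set M} (c : Cls I O) (h : O ⊆ O) : c.res h = c := by
  obtain ⟨a⟩ := c
  rfl

theorem res_res {O O' O'' : Set M} (c : Cls I O) (h : O' ⊆ O) (h' : O'' ⊆ O') :
    (c.res h).res h' = c.res (h'.trans h) := by
  obtain ⟨a⟩ := c
  rfl

theorem res_pull {O O' : Set M} (c : Cls I O) (h : O' ⊆ O) (hf : ∀ y ∈ W, IsLocalDiffeomorphAt I' I ∞ f y)
    (hm : MapsTo f W O') : (c.res h).pull hf hm = c.pull hf (hm.mono_right h) := by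
  obtain ⟨a⟩ := c
  rfl

theorem pull_res {O : Set M} (c : Cls I O) (hf : ∀ y ∈ W, IsLocalDiffeomorphAt I' I ∞ f y) (hm : MapsTo f W O)
    (h : W' ⊆ W) : (c.pull hf hm).res h = c.pull (fun y hy => hf y (h hy)) (hm.mono_left h) := by
  obtain ⟨a⟩ := c
  rfl

theorem pb_pull (hf : ∀ y ∈ univ, IsLocalDiffeomorphAt I' I ∞ f y) : Pb f univ d (d.pull hf (mapsTo_univ _ _)) :=
  ⟨hf, (res_self _ _).symm⟩

theorem pb_unique (h : Pb f univ d s) (h' : Pb f univ d s') : s = s' :=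
  (res_self s _).symm.trans (h.2.symm.trans (h'.2.trans (res_self s' _)))

theorem pb_id : Pb id W s s := ⟨fun x _ => Cyl58.ld_id x, (s.res_eq_pull _).symm⟩

theorem pb_mono (h : Pb f W d s) (k : W' ⊆ W) : Pb f W' d s :=
  let ⟨a, e⟩ := h; ⟨fun y hy => a y (k hy), by rw [← pull_res d a (mapsTo_univ _ _) k, e, res_res]⟩

theorem pb_congr (h : Pb f W d s) (e : ∀ y ∈ W, f' =ᶠ[𝓝 y] f) : Pb f' W d s :=
  let ⟨a, k⟩ := h
  ⟨fun y hy => Glue52.ld_congr (a y hy) (e y hy), (d.pull_congr a _ _ _ e).symm.trans k⟩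

theorem pb_comp (h : Pb f W d s) (h' : Pb g V s u) (hm : MapsTo g V W) : Pb (f ∘ g) V d u := by
  obtain ⟨a, e⟩ := h
  obtain ⟨b, e'⟩ := h'
  refine ⟨fun z hz => (b z hz).comp _ _ (a _ (hm hz)), ?_⟩
  rw [← d.pull_pull a (mapsTo_univ _ _) b hm, e, res_pull, e']

theorem pb_symm {φ : N ≃ₘ^∞⟮I', I⟯ M} (h : Pb φ univ d s) : Pb φ.symm univ s d := by
  have k := pb_pull (d := s) fun y _ => φ.symm.isLocalDiffeomorph y
  rwa [pb_unique (pb_congr (pb_comp h k (mapsTo_univ _ _)) (f' := id)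
    fun _ _ => .of_forall fun y => (φ.apply_symm_apply y).symm) pb_id] at k

end Pb

variable {S : Scene} (θ : Th S) {τ : Tub} {a b e : Z2} {v v' : ℝ → Z2} {hv : Loc v} {hv' : Loc v'}

/-- **NAT on rod manifolds** -/
theorem nat_rz {i k : S.ι} {c c' : S.κ i k} {f : Fo τ (S.ob i).toO3 a} {g : Fo τ (S.ob k).toO3 e}
    (r : Rz (S.cob c) hv f g) (r' : Rz (S.cob c') hv' f g) (ψ : τ.X v ≃ₘ^∞⟮𝓡 4, 𝓡 4⟯ τ.X v')
    (hψ : Pos (𝓡 4) (𝓡 4) ψ univ (oX hv τ.ori) (oX hv' τ.ori)) (h1 : Ag atBot (ψ ∘ f.cy v) (f.cy v'))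
    (h2 : Ag atTop (ψ ∘ g.cy v) (g.cy v')) {d : (S.cob c).L} {d' : (S.cob c').L}
    {d₀ : Cls (𝓡 4) (univ : Set (τ.X v))} {d₀' : Cls (𝓡 4) (univ : Set (τ.X v'))} (p : Pb r.φ univ d d₀)
    (p' : Pb r'.φ univ d' d₀') (q : Pb ψ univ d₀' d₀) : θ.F c d = θ.F c' d' := by
  have l := fun y (_ : y ∈ univ) => r.φ.symm.isLocalDiffeomorph y
  have k : ∀ {Y : Type} {l : Filter ℝ} {x : Y × ℝ → τ.X v} {y : Y × ℝ → τ.X v'} {z w}, Nd l → Ag l (ψ ∘ x) y →
      Ag l (r.φ ∘ x) z → Ag l (r'.φ ∘ y) w → Ag l ((r.φ.symm.trans (ψ.trans r'.φ)) ∘ z) w := fun {_ _ x _ _ _} n a b c =>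
    ag_trans n (ag_comp (ag_symm n b) _) (ag_trans n (ag_of_eq (g := r'.φ ∘ ψ ∘ x) (.of_forall fun _ _ => by simp))
      (ag_trans n (ag_comp a _) c))
  have t := pb_comp (pb_comp p' q (mapsTo_univ _ _)) (pb_symm p) (mapsTo_univ _ _)
  refine θ.nat c c' ⟨r.φ.symm.trans (ψ.trans r'.φ), ?_⟩ d d' (k nd_bot h1 r.ki r'.ki) (k nd_top h2 r.ko r'.ko) t
  have s := Pos.symm (φ := r.φ.toPartialDiffeomorph) r.pos subset_rfl
  exact (r'.pos.comp hψ (fun y _ => r'.φ.isLocalDiffeomorph y) (fun y _ => ψ.isLocalDiffeomorph y)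
    (mapsTo_univ _ _)).comp (s.mono fun y _ => ⟨r.φ.symm y, trivial, r.φ.apply_symm_apply y⟩)
    (fun y _ => (ψ.trans r'.φ).isLocalDiffeomorph y) l (mapsTo_univ _ _)

variable {ι κ : Type} [Fintype ι] [Fintype κ] [DecidableEq ι] [DecidableEq κ]

/-- the class `d` has the orders `m` -/
def Lb (R : Ref τ.T ι κ) (d : Cls (𝓡 4) (univ : Set (τ.X v))) (m : ℝ → ℤ) : Prop :=
  ∃ D : Dat (𝓡 4) (univ : Set (τ.X v)), (Quot.mk _ D : Cls (𝓡 4) univ) = d ∧ R.Lab D.d m univ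

theorem sig (hv : Loc v) : SigmaCompactSpace (τ.X v) :=
  have := τ.T.secondCountable hv
  sigmaCompact (𝓡 4) _

theorem ag_of_time {A : O3} (f : Fo τ A a) {l : Filter ℝ} {φ : τ.X v → τ.X v} {J : Set ℝ}
    (h : ∀ p, τ.T.time v p ∉ J → φ p = p) (h1 : ∀ᶠ t in l, t ∈ Jr v a) (h2 : ∀ᶠ t in l, t ∉ J) :
    Ag l (φ ∘ f.cy v) (f.cy v) :=
  ag_of_eq ((h1.and h2).mono fun _ k y => h _ (by rw [f.F.time_cyf f.hu y k.1]; exact k.2))

/-- **REFL** -/
theorem refl_th {i k : S.ι} {c : S.κ i k} {f : Fo τ (S.ob i).toO3 a} {g : Fo τ (S.ob k).toO3 e}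
    (r : Rz (S.cob c) hv f g) {x y : ℝ} (h : V2 v a b e x y) (hu : Rod53.Uni a b) {σ ρ n n' : ℤ}
    (hσ : σ = 1 ∨ σ = -1) (hρ : ρ = 1 ∨ ρ = -1) (hn : n * n' = 2) (hs : σ • a + ρ • e = n • b)
    {ma mb mb' mc : ℤ} (hb : mb' = -mb + n' * (σ * ma + ρ * mc)) {R : Ref τ.T ι κ} {m m' : ℝ → ℤ}
    (o : Or2 v m a b e x y ma mb mc) (o' : Or2 v m' a b e x y ma mb' mc) {d d' : (S.cob c).L}
    {d₀ d₀' : Cls (𝓡 4) (univ : Set (τ.X v))}
    (p : Pb r.φ univ d d₀) (p' : Pb r.φ univ d' d₀') (q : Lb R d₀ m) (q' : Lb R d₀' m') : θ.F c d = θ.F c d' := by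
  have := sig (τ := τ) hv
  obtain ⟨D, rfl, q⟩ := q
  obtain ⟨D', rfl, q'⟩ := q'
  obtain ⟨φ, h1, ⟨A, B, h2⟩, h3⟩ := exists_refl h.1 h.2.1 h.2.2 hu hσ hρ hn hs hb o o' (R.rfx _) D.ok D'.ok q q'
  refine (nat_rz θ r r φ (h1 _ (oX_spec _ _).ori) (ag_of_time f h2 ?_ ?_) (ag_of_time g h2 ?_ ?_) p' p
    ⟨fun y _ => φ.isLocalDiffeomorph y, Quot.sound h3⟩).symm
  · exact (eventually_lt_atBot x).mono fun t ht => Rod53.Jv.left (h.2.1 t (ht.trans h.1)) ht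
  · exact (eventually_lt_atBot A).mono fun t ht k => k.1.not_gt ht
  · exact (eventually_gt_atTop y).mono fun t ht => Rod53.Jv.right (h.2.2 t (h.1.trans ht)) ht
  · exact (eventually_gt_atTop B).mono fun t ht k => k.2.not_gt ht

end Crest.Agent.X212.Rfl19
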