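import Crest.Agent.X212.Rfl19.Cmp
import Crest.Agent.X212.Bor5.Ex

/-!
# X212 / Rfl19, part Stm (helper19): the leaves R-COMP and R-REFL

* `rz`, `tm_rz` : a literal realisation is a realisation; `v2_w2`, `or2_w2` : the word with two vertices;
* `cmpStmt : CmpStmt`, `rflStmt : RflStmt`.
-/

set_option autoImplicit false
set_option linter.unusedSectionVars false

open Set Filter Topology Function
open scoped ContDiff Manifold
open Crest.Agent.X212.Bor5.T Crest.Agent.X212.Lab56 Crest.Agent.X212.Orx52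
open Crest.Agent.X212.Rod53 (E4 Z2 Tb Loc Jv Jr PM wd IsWd wd_congr Iio_subset_Jr Ioi_subset_Jr Ioo_subset_Jr
  Ioo_subset_Jv)
open Crest.Agent.X212.Line51 (wm dot dual dual_left dual_right dot_wd wm_congr)

noncomputable section

namespace Crest.Agent.X212.Rfl19

section Rt

variable {τ : Tub} {A B : Q3} {a b : Z2} {C : Cob A B} {v : ℝ → Z2} {hv : Loc v} {f : Fo τ A.toO3 a}
  {g : Fo τ B.toO3 b} {x y : ℝ}

/-- a literal realisation is a realisation -/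
def rz (r : Rt C hv f g x y) : Rz C hv f g where
  φ := r.K.toDiffeo
  pos := r.pos
  ki := ag_of_eq ((eventually_lt_atBot x).mono fun t ht p => r.ki (p, t) ht)
  ko := ag_of_eq ((eventually_gt_atTop y).mono fun t ht p => r.ko (p, t) ht)

theorem tm_rz (r : Rt C hv f g x y) : Tm (rz r) :=
  ⟨fun p => r.K.tm p (mem_univ _), fun p t ht => (r.ki (p, t) (r.ha ▸ ht)).symm,
    fun p t ht => (r.ko (p, t) (r.hb ▸ ht)).symm⟩

end Rt

section Wd

variable {α : Type} {a b c : α} {k : ℤ}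

theorem w1_neg (h : k < 0) : w1 a b k = a := if_pos h
theorem w1_pos (h : 0 ≤ k) : w1 a b k = b := if_neg h.not_gt
theorem w2_neg (h : k < 0) : w2 a b c k = a := if_pos h
theorem w2_zero : w2 a b c 0 = b := rfl
theorem w2_pos (h : 1 ≤ k) : w2 a b c k = c := by rw [w2, if_neg (by omega), if_neg (by omega)]

theorem w12 (c : α) (h : k ≤ 0) : w1 a b k = w2 a b c k := by
  unfold w1 w2
  split_ifs <;> first | rfl | omega

theorem w21 (a : α) (h : -1 ≤ k) : w1 b c k = w2 a b c (k + 1) := by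
  unfold w1 w2
  split_ifs <;> first | rfl | omega

theorem wd_sh (a : ℤ → Z2) (d : ℤ) (t : ℝ) : wd a (t + d) = wd (fun j => a (j + d)) t := by
  have k : (t + d = ((⌊t⌋ + d : ℤ) : ℝ)) ↔ t = ⌊t⌋ := by rw [Int.cast_add, add_left_inj]
  unfold wd
  rw [Int.floor_add_intCast, add_sub_right_comm]
  by_cases h : t = ⌊t⌋ ∧ ¬PM (a (⌊t⌋ - 1 + d)) (a (⌊t⌋ + d))
  · rw [if_pos h, if_pos ⟨k.2 h.1, h.2⟩]
  · rw [if_neg h, if_neg fun h' => h ⟨k.1 h'.1, h'.2⟩]

theorem wm_sh (a : ℤ → Z2) (n : ℤ → ℤ) (d : ℤ) (t : ℝ) :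
    wm a n (t + d) = wm (fun j => a (j + d)) (fun j => n (j + d)) t := by
  have k : (t + d = ((⌊t⌋ + d : ℤ) : ℝ)) ↔ t = ⌊t⌋ := by rw [Int.cast_add, add_left_inj]
  unfold wm
  rw [Int.floor_add_intCast, add_sub_right_comm]
  by_cases h : t = ⌊t⌋ ∧ ¬PM (a (⌊t⌋ - 1 + d)) (a (⌊t⌋ + d))
  · rw [if_pos h, if_pos ⟨k.2 h.1, h.2⟩]
  · rw [if_neg h, if_neg fun h' => h ⟨k.1 h'.1, h'.2⟩]

theorem mem_l {t : ℝ} (h : t < 1) : t ∈ Ioo ((⌊t⌋ - 1 : ℤ) : ℝ) ((0 : ℤ) + 1) :=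
  ⟨by push_cast; linarith [Int.floor_le t], by simpa using h⟩

theorem mem_r {t : ℝ} {i : ℤ} (h : (i : ℝ) < t) : t ∈ Ioo (i : ℝ) ((⌊t⌋ : ℤ) + 1) := ⟨h, Int.lt_floor_add_one t⟩

variable {a b c : Z2} {ma mb mc : ℤ}

theorem jr_w1l {t : ℝ} (h : t < 0) : t ∈ Jr (wd (w1 a b)) a :=
  Iio_subset_Jr (j := -1) (fun _ hk => Or.inl (w1_neg (by omega))) (by simpa using h)

theorem jr_w1r {t : ℝ} (h : 0 < t) : t ∈ Jr (wd (w1 a b)) b :=
  Ioi_subset_Jr (i := 0) (fun _ hk => Or.inl (w1_pos hk)) (by simpa using h)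

theorem v2_w2 (h : Rod53.Uni a b) (k : Rod53.Uni b c) : V2 (wd (w2 a b c)) a b c 0 1 := by
  refine ⟨one_pos, fun t ht => ?_, fun t ht => ?_⟩
  · rcases lt_or_ge t 0 with e | e
    · exact Jv.of_left (Iio_subset_Jr (j := -1) (fun _ hk => Or.inl (w2_neg (by omega))) (by simpa using e)) e
    · simpa [w2] using Ioo_subset_Jv (a := w2 a b c) (i := 0) h (show t ∈ _ from ⟨by simp; linarith, by simpa using ht⟩)
  · rcases lt_or_ge 1 t with e | e
    · exact Jv.of_right (Ioi_subset_Jr (i := 1) (fun _ hk => Or.inl (w2_pos hk)) (by simpa using e)) e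
    · simpa [w2] using Ioo_subset_Jv (a := w2 a b c) (i := 1) k (show t ∈ _ from ⟨by simpa using ht, by simp; linarith⟩)

theorem or2_w2 (h : Rod53.Uni a b) (k : Rod53.Uni b c) :
    Or2 (wd (w2 a b c)) (wm (w2 a b c) (w2 ma mb mc)) a b c 0 1 ma mb mc := by
  refine ⟨⟨_, dual_left h _ _, dual_right h _ _, fun t ht => (dot_wd (fun n _ hn => ?_) (mem_l ht)).symm⟩,
    _, dual_left k _ _, dual_right k _ _, fun t ht => (dot_wd (i := 0) (fun n hn _ => ?_)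
      (mem_r (by simpa using ht))).symm⟩
  · rcases hn.lt_or_eq with e | rfl
    · rw [w2_neg e, w2_neg e, dual_left h]
    · exact dual_right h _ _
  · rcases hn.lt_or_eq with e | rfl
    · rw [w2_pos e, w2_pos e, dual_right k]
    · exact dual_left k _ _

end Wd

/-- **R-COMP** -/
theorem cmpStmt : CmpStmt := by
  rintro S θ τ I V v X n N R a b c h k d d₁ d₂ ma mb mc ⟨D, p, q⟩ ⟨D₁, p₁, q₁⟩ ⟨D₂, p₂, q₂⟩
  refine comp_th θ (tm_rz (X.r1 h)) (tm_rz (X.r1 k)) (tm_rz (X.r2 h k)) (δ₁ := 0) (δ₂ := (1 : ℤ)) one_pos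
    (by simp [(X.r1 h).hb]) (by simp [(X.r1 k).ha]) (fun s hs => ?_) (fun s hs => ?_)
    ((eventually_lt_atBot 0).mono fun _ => jr_w1l) ((eventually_gt_atTop 0).mono fun _ => jr_w1r)
    (fun s hs => Ioo_subset_Jr (a := w2 (v a) (v b) (v c)) (i := 0) (by simpa using hs)) (fun s hs => ?_)
    (fun s hs => ?_) p p₁ p₂ q q₁ q₂
  · rw [add_zero] at hs ⊢
    exact wd_congr (fun _ _ => w12 _) (mem_l hs)
  · rw [wd_sh]
    exact wd_congr (i := -1) (fun _ e _ => w21 _ e) (mem_r (by simp at hs ⊢; linarith))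
  · rw [add_zero] at hs ⊢
    exact wm_congr (fun _ _ => w12 _) (fun _ _ => w12 _) (mem_l hs)
  · rw [wm_sh]
    exact wm_congr (i := -1) (fun _ e _ => w21 _ e) (fun _ e _ => w21 _ e) (mem_r (by simp at hs ⊢; linarith))

/-- **R-REFL** -/
theorem rflStmt : RflStmt := by
  rintro S θ τ I V v X n N R a b c h k σ ρ p e d d' ma mb mb' mc hσ hρ hp hs hb ⟨D, r, q⟩ ⟨D', r', q'⟩
  exact refl_th θ (R := R) (rz (X.r2 h k)) (v2_w2 h.2.2 k.2.2) h.2.2 hσ hρ hp hs hb (or2_w2 h.2.2 k.2.2)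
    (or2_w2 h.2.2 k.2.2) r r' q q'

end Crest.Agent.X212.Rfl19
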