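import Crest.Agent.X212.Rfl19.Th
import Crest.Agent.X212.Line51.Tw

/-!
# X212 / Rfl19, part Cmp (helper19): composition and translation of rod cobordisms

* `pb_ff` : classes with corresponding orders correspond under a translation;
* `Tm r` : the realisation respects the time; `comp_th` (COMP), `shift_th`.
-/

set_option autoImplicit false
set_option linter.unusedSectionVars false

open Set Filter Topology Function
open scoped ContDiff Manifold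
open Crest.Agent.X212.Bor5.T Crest.Agent.X212.Lab56 Crest.Agent.X212.Orx52
open Crest.Agent.X212.Rod53 (E4 Z2 Tb Loc Jv Jr PM)
open Crest.Agent.X212.Wd38 (NR ff ft nr_ff ld_ff pos_ff)
open Crest.Agent.X212.Cyl58 (TIso)
open Crest.Agent.X212.Line51 (off dot)

noncomputable section

namespace Crest.Agent.X212.Rfl19

variable {τ : Tub} {a b e a' b' : Z2} {v v' v₁ v₂ : ℝ → Z2} {hv : Loc v} {hv' : Loc v'} {hv₁ : Loc v₁}
  {hv₂ : Loc v₂} {ι κ : Type} [Fintype ι] [Fintype κ] [DecidableEq ι] [DecidableEq κ] {R : Ref τ.T ι κ}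
  {m m' m₁ m₂ : ℝ → ℤ} {δ : ℝ} {J : Set ℝ}

theorem Lb.unique (hv : Loc v) {d d' : Cls (𝓡 4) (univ : Set (τ.X v))} (q : Lb R d m) (q' : Lb R d' m) : d = d' := by
  have := sig (τ := τ) hv
  obtain ⟨D, rfl, q⟩ := q
  obtain ⟨D', rfl, q'⟩ := q'
  exact Quot.sound (Lab.eqv isOpen_univ (R.rfx _) D.ok D'.ok q q')

theorem pb_ff (hv' : Loc v') {W : Set (τ.X v')} (hW : IsOpen W) (ha : W ⊆ Wd38.ag τ.T v' v δ)
    (hm : ∀ p ∈ W, p ∉ off τ.T v' → ∀ᶠ t in 𝓝 (τ.T.time v' p), m' t = m (t + δ))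
    {d : Cls (𝓡 4) (univ : Set (τ.X v))} {d' : Cls (𝓡 4) (univ : Set (τ.X v'))} (q : Lb R d m) (q' : Lb R d' m') :
    Pb (ff τ.T τ.T δ v' v) W d d' := by
  have := sig (τ := τ) hv'
  obtain ⟨D, rfl, q⟩ := q
  obtain ⟨D', rfl, q'⟩ := q'
  have l := fun p hp => ld_ff (T := τ.T) rfl (ha (a := p) hp)
  exact ⟨l, Quot.sound (Lab.eqv hW (R.rfx W) (D.ok.pull l (mapsTo_univ _ _)) (D'.ok.mono (subset_univ _))
    (Ref.Lab.time (Cyl58.Up.add_const δ univ) hW D.ok q l (mapsTo_univ _ _) (fun _ k _ => (NR.ext rfl k).ff_eq)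
      fun _ h => h.tm (Line51.tm_nr rfl hW (fun _ hp => nr_ff rfl (ha hp)) ha hm) (mapsTo_univ _ _))
    (q'.mono (subset_univ _)))⟩

theorem sub_ag (hJ : IsOpen J) (h : ∀ t, t + δ ∈ J → v' t = v (t + δ)) :
    {p : τ.X v' | τ.T.time v' p + δ ∈ J} ⊆ Wd38.ag τ.T v' v δ := fun _ hp =>
  Or.inr (Wd38.Ag.of_open (hJ.preimage (continuous_add_const δ)) h hp)

theorem pb_time (hv' : Loc v') (hJ : IsOpen J) (h : ∀ t, t + δ ∈ J → v' t = v (t + δ))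
    (hm : ∀ t, t + δ ∈ J → m' t = m (t + δ)) {d : Cls (𝓡 4) (univ : Set (τ.X v))}
    {d' : Cls (𝓡 4) (univ : Set (τ.X v'))} (q : Lb R d m) (q' : Lb R d' m') :
    Pb (ff τ.T τ.T δ v' v) {p | τ.T.time v' p + δ ∈ J} d d' :=
  pb_ff hv' (hJ.preimage (τ.T.continuous_time.add continuous_const)) (sub_ag hJ h)
    (fun _ hp _ => eventually_of_mem ((hJ.preimage (continuous_add_const δ)).mem_nhds hp) hm) q q'

theorem ff_cy {A : O3} (f : Fo τ A a) (y : A.Y.M) {t : ℝ} (h' : t ∈ Jr v' a) (h : t + δ ∈ Jr v a)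
    (k : v' t = v (t + δ)) : ff τ.T τ.T δ v' v (f.cy v' (y, t)) = f.cy v (y, t + δ) :=
  (NR.cyf f.F rfl rfl f.hu y h' h k).ff_eq

theorem ag_ff {A : O3} (f : Fo τ A a) {l : Filter ℝ} (hJ : IsOpen J) (h : ∀ t, t + δ ∈ J → v' t = v (t + δ))
    (h1 : ∀ᶠ t in l, t ∈ Jr v' a) (h2 : ∀ᶠ t in l, t + δ ∈ J) : Ag l (ff τ.T τ.T δ v' v ∘ f.cy v') (f.cy v) :=
  ⟨δ, (h1.and h2).mono fun t k y => ff_cy f y k.1
    (Wd38.Ag.jr (Wd38.Ag.of_open (hJ.preimage (continuous_add_const δ)) h k.2) k.1) (h t k.2)⟩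

section Tm

variable {A B A' B' : Q3} {C : Cob A B} {C' : Cob A' B'} {f : Fo τ A.toO3 a} {g : Fo τ B.toO3 b}
  {f' : Fo τ A'.toO3 a'} {g' : Fo τ B'.toO3 b'}

/-- a realisation that respects the time -/
structure Tm (r : Rz C hv f g) : Prop where
  tm : ∀ p, C.X.τ (r.φ p) = τ.T.time v p
  ki : ∀ y t, t < C.a → C.ki (y, t) = r.φ (f.cy v (y, t))
  ko : ∀ y t, C.b < t → C.ko (y, t) = r.φ (g.cy v (y, t))

variable {r : Rz C hv f g} {r' : Rz C' hv' f' g'}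

theorem Tm.symm (h : Tm r) (p : C.M) : τ.T.time v (r.φ.symm p) = C.X.τ p := by
  rw [← h.tm, r.φ.apply_symm_apply]

theorem pos_symm (r : Rz C hv f g) : Pos C.X.P.I (𝓡 4) r.φ.symm univ C.o (oX hv τ.ori) :=
  (Pos.symm (φ := r.φ.toPartialDiffeomorph) r.pos subset_rfl).mono fun y _ =>
    ⟨r.φ.symm y, trivial, r.φ.apply_symm_apply y⟩

/-- the translation between two realisations -/
def tI (h' : Tm r') (h : Tm r) (hJ : IsOpen J) (k : ∀ t, t + δ ∈ J → v' t = v (t + δ)) :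
    TIso (C'.X.shift δ) C.X J :=
  ((TIso.ofDiffeo (M := C'.X.shift δ) (M' := (τ.T.tp hv').shift δ) r'.φ.symm
    (fun p => congrArg (· + δ) (h'.symm p)) hJ).trans (ft rfl hv' hv hJ k)).trans
    (TIso.ofDiffeo (M := τ.T.tp hv) r.φ h.tm hJ)

theorem tI_apply (h' : Tm r') (h : Tm r) (hJ : IsOpen J) (k : ∀ t, t + δ ∈ J → v' t = v (t + δ)) (p : C'.M) :
    tI h' h hJ k p = r.φ (ff τ.T τ.T δ v' v (r'.φ.symm p)) := rfl

theorem tpos_tI (h' : Tm r') (h : Tm r) (hJ : IsOpen J) (k : ∀ t, t + δ ∈ J → v' t = v (t + δ)) :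
    TPos (tI h' h hJ k) C'.o C.o := by
  have s : MapsTo r'.φ.symm {x : C'.M | C'.X.τ x + δ ∈ J} (Wd38.ag τ.T v' v δ) := fun x hx =>
    sub_ag hJ k (show τ.T.time v' (r'.φ.symm x) + δ ∈ J by rw [h'.symm]; exact hx)
  have t := (r.pos.comp (pos_ff (d := δ) rfl (oX_spec hv' τ.ori) (oX_spec hv τ.ori))
    (fun y _ => r.φ.isLocalDiffeomorph y) (fun _ => ld_ff rfl) (mapsTo_univ _ _)).comp
    ((pos_symm r').mono (subset_univ _))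
    (fun _ hy => (ld_ff rfl hy).comp _ _ (r.φ.isLocalDiffeomorph _)) (fun y _ => r'.φ.symm.isLocalDiffeomorph y) s
  exact t

theorem pb_tI (h' : Tm r') (h : Tm r) (hJ : IsOpen J) (k : ∀ t, t + δ ∈ J → v' t = v (t + δ))
    (hm : ∀ t, t + δ ∈ J → m' t = m (t + δ)) {d : C.L} {d' : C'.L} {d₀ : Cls (𝓡 4) (univ : Set (τ.X v))}
    {d₀' : Cls (𝓡 4) (univ : Set (τ.X v'))} (p : Pb r.φ univ d d₀) (p' : Pb r'.φ univ d' d₀') (q : Lb R d₀ m)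
    (q' : Lb R d₀' m') : Pb (fun x : C'.M => (tI h' h hJ k x : C.M)) {x | C'.X.τ x + δ ∈ J} d d' := by
  have s : MapsTo r'.φ.symm {x : C'.M | C'.X.τ x + δ ∈ J} {p | τ.T.time v' p + δ ∈ J} := fun x hx =>
    show τ.T.time v' (r'.φ.symm x) + δ ∈ J by rw [h'.symm]; exact hx
  have t := pb_comp (pb_comp p (pb_time hv' hJ k hm q q') (mapsTo_univ _ _)) (pb_mono (pb_symm p') (subset_univ _)) s
  exact t

theorem ag_tI {Y : Type} {l : Filter ℝ} (n : Nd l) {x : Y × ℝ → τ.X v'} {y : Y × ℝ → τ.X v} {z : Y × ℝ → C'.M}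
    {w : Y × ℝ → C.M} {ψ : τ.X v' → τ.X v} (h1 : Ag l (ψ ∘ x) y) (h2 : Ag l (r'.φ ∘ x) z) (h3 : Ag l (r.φ ∘ y) w) :
    Ag l ((fun p => r.φ (ψ (r'.φ.symm p))) ∘ z) w :=
  ag_trans n (ag_comp (ag_symm n h2) _) (ag_trans n (ag_of_eq (g := r.φ ∘ ψ ∘ x) (.of_forall fun _ _ => by simp))
    (ag_trans n (ag_comp h1 _) h3))

end Tm

variable {S : Scene} (θ : Th S)

/-- **COMP** -/
theorem comp_th {i j k : S.ι} {c₁ : S.κ i j} {c₂ : S.κ j k} {c : S.κ i k} {f : Fo τ (S.ob i).toO3 a}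
    {g : Fo τ (S.ob j).toO3 b} {h : Fo τ (S.ob k).toO3 e} {r₁ : Rz (S.cob c₁) hv₁ f g} {r₂ : Rz (S.cob c₂) hv₂ g h}
    {r : Rz (S.cob c) hv f h} (t₁ : Tm r₁) (t₂ : Tm r₂) (t : Tm r) {δ₁ δ₂ α β : ℝ} (lt : α < β)
    (hb : (S.cob c₁).b + δ₁ ≤ α) (ha : β ≤ (S.cob c₂).a + δ₂) (e₁ : ∀ s, s + δ₁ < β → v₁ s = v (s + δ₁))
    (e₂ : ∀ s, α < s + δ₂ → v₂ s = v (s + δ₂)) (j₁ : ∀ᶠ s in atBot, s ∈ Jr v₁ a) (j₂ : ∀ᶠ s in atTop, s ∈ Jr v₂ e)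
    (jb : ∀ s ∈ Ioo α β, s ∈ Jr v b) (k₁ : ∀ s, s + δ₁ < β → m₁ s = m (s + δ₁))
    (k₂ : ∀ s, α < s + δ₂ → m₂ s = m (s + δ₂)) {d : (S.cob c).L} {d₁ : (S.cob c₁).L} {d₂ : (S.cob c₂).L}
    {D : Cls (𝓡 4) (univ : Set (τ.X v))} {D₁ : Cls (𝓡 4) (univ : Set (τ.X v₁))}
    {D₂ : Cls (𝓡 4) (univ : Set (τ.X v₂))} (p : Pb r.φ univ d D) (p₁ : Pb r₁.φ univ d₁ D₁)
    (p₂ : Pb r₂.φ univ d₂ D₂) (q : Lb R D m) (q₁ : Lb R D₁ m₁) (q₂ : Lb R D₂ m₂) :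
    θ.F c d = θ.F c₂ d₂ ∘ₗ θ.F c₁ d₁ := by
  have w : ∀ {u : ℝ → Z2} {δ J} (y : (S.ob j).Y.M), IsOpen J → (∀ s, s + δ ∈ J → u s = v (s + δ)) →
      ∀ s ∈ Ioo α β, s ∈ J → ff τ.T τ.T δ u v (g.cy u (y, s - δ)) = g.cy v (y, s) := fun {u δ J} y hJ k s h1 h2 => by
    have k1 : s ∈ Wd38.Ag v u (-δ) := by
      simpa using Wd38.Ag.symm (Wd38.Ag.of_open (hJ.preimage (continuous_add_const δ)) k (x := s - δ)
        (by simpa using h2))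
    rw [ff_cy g y (t := s - δ) (Wd38.Ag.jr k1 (jb s h1)) (by simpa using jb s h1) (k _ (by simpa using h2)),
      sub_add_cancel]
  refine θ.comp c₁ c₂ c ⟨δ₁, δ₂, α, β, lt, hb, ha, tI t₁ t isOpen_Iio e₁, tI t₂ t isOpen_Ioi e₂,
    tpos_tI t₁ t _ _, tpos_tI t₂ t _ _, fun y s hs => ?_⟩ d d₁ d₂
    (ag_tI nd_bot (ag_ff f isOpen_Iio e₁ j₁ ((nd_bot δ₁).eventually (eventually_lt_atBot β))) r₁.ki r.ki)
    (ag_tI nd_top (ag_ff h isOpen_Ioi e₂ j₂ ((nd_top δ₂).eventually (eventually_gt_atTop α))) r₂.ko r.ko)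
    ⟨pb_tI t₁ t isOpen_Iio e₁ k₁ p p₁ q q₁, pb_tI t₂ t isOpen_Ioi e₂ k₂ p p₂ q q₂⟩
  rw [t₁.ko y _ (by linarith [hs.1]), t₂.ki y _ (by linarith [hs.2]), tI_apply, tI_apply, r₁.φ.symm_apply_apply,
    r₂.φ.symm_apply_apply, w y isOpen_Iio e₁ s hs hs.2, w y isOpen_Ioi e₂ s hs hs.1]

/-- translation invariance -/
theorem shift_th {i k : S.ι} {c c' : S.κ i k} {f : Fo τ (S.ob i).toO3 a} {g : Fo τ (S.ob k).toO3 e}
    (r : Rz (S.cob c) hv f g) (r' : Rz (S.cob c') hv' f g) (h : ∀ t, v' t = v (t + δ))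
    (j₁ : ∀ᶠ s in atBot, s ∈ Jr v' a) (j₂ : ∀ᶠ s in atTop, s ∈ Jr v' e) (hm : ∀ t, m' t = m (t + δ))
    {d : (S.cob c).L} {d' : (S.cob c').L} {D : Cls (𝓡 4) (univ : Set (τ.X v))}
    {D' : Cls (𝓡 4) (univ : Set (τ.X v'))} (p : Pb r.φ univ d D) (p' : Pb r'.φ univ d' D') (q : Lb R D m)
    (q' : Lb R D' m') : θ.F c' d' = θ.F c d :=
  nat_rz θ r' r (((ft rfl hv' hv isOpen_univ fun t _ => h t).toDiffeo :
      ((τ.T.tp hv').shift δ).P.M ≃ₘ^∞⟮_, _⟯ (τ.T.tp hv).P.M))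
    ((pos_ff rfl (oX_spec _ _) (oX_spec _ _)).mono (sub_ag isOpen_univ fun t _ => h t))
    (ag_ff f isOpen_univ (fun t _ => h t) j₁ (.of_forall fun _ => trivial))
    (ag_ff g isOpen_univ (fun t _ => h t) j₂ (.of_forall fun _ => trivial)) p' p
    (pb_time hv' isOpen_univ (fun t _ => h t) (fun t _ => hm t) q q')

end Crest.Agent.X212.Rfl19
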