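import Crest.Agent.X212.Cls19.Rfl
import Crest.Agent.X212.Lab56.Lab

/-!
# X212 / Rfl19, part Geo (helper19): the reflection of classes on a rod manifold with two vertices

* `Or2 v m a b c x y ma mb mc` : the function `m` has the orders `ma`, `mb`, `mc` along the rods `a`, `b`, `c`;
* `exists_refl` : a positive diffeomorphism, the identity near the ends, that reflects the middle order.
-/

set_option autoImplicit false
set_option linter.unusedSectionVars false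

open Set Filter Topology Function Matrix
open scoped ContDiff Manifold
open Crest.Agent.R208.F (Ext)
open Crest.Agent.X212.Line51 Crest.Agent.X212.Lab56 Crest.Agent.X212.Tau19
open Crest.Agent.X212.Rod53 hiding Uni X cj
open Crest.Agent.X212.Int54 (Ori)

noncomputable section

namespace Crest.Agent.X212.Rfl19

/-- the orders along a word with one vertex -/
def Or1 (v : ℝ → Z2) (m : ℝ → ℤ) (a b : Z2) (J : Set ℝ) (ma mb : ℤ) : Prop :=
  ∃ η, dot η a = ma ∧ dot η b = mb ∧ ∀ t ∈ J, m t = dot η (v t)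

/-- the orders along a word with two vertices -/
def Or2 (v : ℝ → Z2) (m : ℝ → ℤ) (a b c : Z2) (x y : ℝ) (ma mb mc : ℤ) : Prop :=
  Or1 v m a b (Iio y) ma mb ∧ Or1 v m b c (Ioi x) mb mc

variable {v : ℝ → Z2} {m m' : ℝ → ℤ} {a b c η η' : Z2} {x y t : ℝ} {ma mb mb' mc : ℤ}

theorem rep_of {J : Set ℝ} (hJ : IsOpen J) (h : ∀ t ∈ J, m t = dot η (v t)) (ht : t ∈ J) : Rep v m η t :=
  eventually_of_mem (hJ.mem_nhds ht) fun s hs => (h s hs).symm

theorem dot_eq_pm {w : Z2} (h : PM w a) (e : dot η a = dot η' a) : dot η w = dot η' w := by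
  rcases h with rfl | rfl
  · exact e
  · rw [dot_neg', dot_neg', e]

theorem dot_smul' (η a : Z2) (k : ℤ) : dot η (k • a) = k * dot η a := by simp [dot]; ring

theorem pm_sg {σ : ℤ} (h : σ = 1 ∨ σ = -1) (a : Z2) : PM a (σ • a) := by
  rcases h with rfl | rfl
  · exact Or.inl (one_smul _ _).symm
  · exact Or.inr (by simp)

theorem two_cases {n e : ℤ} (h : n * e = 2) : ∃ (ε : ℤ) (n₀ e₀ : ℕ), (ε = 1 ∨ ε = -1) ∧ n₀ * e₀ = 2 ∧
    n = ε * n₀ ∧ e = ε * e₀ := by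
  have h1 : n.natAbs * e.natAbs = 2 := by rw [← Int.natAbs_mul, h]; rfl
  rcases lt_trichotomy n 0 with k | k | k
  · have : e < 0 := by nlinarith
    exact ⟨-1, _, _, Or.inr rfl, h1, by omega, by omega⟩
  · simp [k] at h
  · have : 0 < e := by nlinarith
    exact ⟨1, _, _, Or.inl rfl, h1, by omega, by omega⟩

variable {EN HN : Type} [NormedAddCommGroup EN] [NormedSpace ℝ EN] [FiniteDimensional ℝ EN]
  [TopologicalSpace HN] {IN : ModelWithCorners ℝ EN HN} [IN.Boundaryless]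
  {N : Type} [TopologicalSpace N] [ChartedSpace HN N] [IsManifold IN ∞ N] [T2Space N] {T : Tb IN N}
  {ι ι' ι'' κ l n : Type} [Fintype ι] [Fintype ι'] [Fintype ι''] [Fintype κ] [Fintype l] [Fintype n]
  [DecidableEq ι] [DecidableEq ι'] [DecidableEq ι''] [DecidableEq κ] [DecidableEq l] [DecidableEq n]
  {r : Sc (𝓡 4) (Rod53.X T v) ι κ} {j : Rod53.X T v → Matrix (κ × κ) Unit ℂ}
  {d : Sc (𝓡 4) (Rod53.X T v) ι' l} {d' : Sc (𝓡 4) (Rod53.X T v) ι'' n}

/-- **REFL** -/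
theorem exists_refl [SigmaCompactSpace (Rod53.X T v)] (hxy : x < y) (h1 : ∀ t < y, t ∈ Jv v a b x)
    (h2 : ∀ t, x < t → t ∈ Jv v b c y) (hu : Rod53.Uni a b) {σ τ k e : ℤ} (hσ : σ = 1 ∨ σ = -1)
    (hτ : τ = 1 ∨ τ = -1) (hk : k * e = 2) (hs : σ • a + τ • c = k • b)
    (hb : mb' = -mb + e * (σ * ma + τ * mc)) (o : Or2 v m a b c x y ma mb mc) (o' : Or2 v m' a b c x y ma mb' mc)
    (hr : Rf r j (univ ∩ off T v)) (hd : d.On univ) (hd' : d'.On univ) (h : Lab r j d m univ)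
    (h' : Lab r j d' m' univ) :
    ∃ φ : Rod53.X T v ≃ₘ^∞⟮𝓡 4, 𝓡 4⟯ Rod53.X T v, (∀ O, Ori (𝓡 4) O → Orx52.Pos (𝓡 4) (𝓡 4) φ univ O O) ∧
      (∃ A B, ∀ p, T.time v p ∉ Icc A B → φ p = p) ∧ Eqv (d.pull (𝓡 4) φ) d' univ := by
  obtain ⟨ε, k₀, e₀, hε, hn, rfl, rfl⟩ := two_cases hk
  have q : √(y - x) ^ 2 = y - x := Real.sq_sqrt (sub_pos.2 hxy).le
  have q1 : (x + y) / 2 - √(y - x) ^ 2 / 2 = x := by rw [q]; ring
  have q2 : (x + y) / 2 + √(y - x) ^ 2 / 2 = y := by rw [q]; ring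
  have S : Sph v (σ • a) (ε • b) (τ • c) k₀ ((x + y) / 2) √(y - x) (y - x + 1) := by
    refine ⟨((pm_sg hε b).symm.uni ((pm_sg hσ a).symm.uni hu).symm).symm, ?_, Real.sqrt_pos.2 (sub_pos.2 hxy),
      by rw [q]; linarith, fun t ht => ?_, fun t ht => ?_⟩
    · rw [smul_smul, mul_comm, ← hs, neg_add_cancel_left]
    · rw [q2] at ht
      rw [q1]
      exact Jv_congr (h1 t ht.2) (pm_sg hσ a) (pm_sg hε b)
    · rw [q1] at ht
      rw [q2]
      exact Jv_congr (h2 t ht.1) (pm_sg hε b) (pm_sg hτ c)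
  have hR : y - x ∈ Ioo (√(y - x) ^ 2 / 2) (y - x + 1) := ⟨by rw [q]; linarith, lt_add_one _⟩
  obtain ⟨⟨η₁, a1, a2, a3⟩, η₂, b1, b2, b3⟩ := o
  obtain ⟨⟨η₁', c1, -, c3⟩, η₂', d1, d2, d3⟩ := o'
  obtain ⟨s, i, hl⟩ := h
  obtain ⟨s', i', hl'⟩ := id h'
  obtain ⟨U, u1, u2⟩ := S.exists_uni_TL T hn hR isOpen_univ (subset_univ _) hl hl'
    (fun t ht => rep_of isOpen_Iio a3 (q2 ▸ ht.2)) (fun t ht => rep_of isOpen_Ioi b3 (q1 ▸ ht.1))
    (fun t ht => rep_of isOpen_Iio c3 (q2 ▸ ht.2)) (fun t ht => rep_of isOpen_Ioi d3 (q1 ▸ ht.1))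
    (fun t ht => by
      rw [q1, q2, mem_Icc, not_and_or, not_le, not_le] at ht
      rcases ht with k | k
      · rw [a3 t (k.trans hxy), c3 t (k.trans hxy)]
        exact dot_eq_pm (Jr.pm (Jv.left (h1 t (k.trans hxy)) k)) (c1.trans a1.symm)
      · rw [b3 t (hxy.trans k), d3 t (hxy.trans k)]
        exact dot_eq_pm (Jr.pm (Jv.right (h2 t (hxy.trans k)) k)) (d2.trans b2.symm)) (by
      simp only [dot_smul', a1, b1, b2, d1, hb]
      rcases hε with rfl | rfl <;> ring)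
  refine ⟨S.tau T hn hR, fun O => S.pos_tau T hn hR, ⟨(x + y) / 2 - (y - x), (x + y) / 2 + (y - x),
    fun p hp => S.tau_off_disc T hn hR fun k => hp ?_⟩, Lab.eqv isOpen_univ hr
      (hd.pull (fun p _ => (S.tau T hn hR).isLocalDiffeomorph p) (mapsTo_univ _ _)) hd'
      (Cls19.lab_tau S hn hR isOpen_univ (subset_univ _) hr.ok hr.sec hd i hl' u1 u2) h'⟩
  have := abs_le.1 ((T.abs_time_le _ p).trans k.2)
  exact ⟨by linarith [this.1], by linarith [this.2]⟩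

end Crest.Agent.X212.Rfl19
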